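import Vale.Agent.P157.Parisi.TreeApprox.Limit
import Vale.Agent.P168.Tree
import Vale.Agent.P168.AssemblyMP.Main

/-! A limit array is approximated by cascades: the module statement. -/

noncomputable section

open MeasureTheory ProbabilityTheory Filter
open scoped BigOperators ENNReal Topology

namespace Vale.Agent.P157.Parisi.TreeApprox

open Vale.Agent.P168 (Arr RepData Shape padded kWeight rbar tmat idRep overlapLaw IsGGArray
  IsTreeArray repData kvec permRep permSite rset spinProd spin shapeProb)
open Vale.Agent.P168.AssemblyMP (IsLevel IsUltra shp shapeOf expo shp_law shp_pos exists_level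
  measurable_shp measurableSet_shp padded_lt_succ measurable_rbar measurable_rset map_rbar)

/-- The kernels of an overlap: a constant and the overlap. -/
def kv (g : ℕ) (x : ℝ) : ℝ := if g = 0 then 1 else if g = 1 then x else 0

lemma continuous_kv (g : ℕ) : Continuous (kv g) := by
  unfold kv
  split_ifs <;> fun_prop

/-- The array of an overlap array: trivial spins. -/
def mkArr (R : OArr) : Arr := (fun _ _ => true, fun g a b => kv g (R a b))

lemma measurable_mkArr : Measurable mkArr :=
  measurable_const.prodMk <| measurable_pi_lambda _ fun g => measurable_pi_lambda _ fun a =>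
    measurable_pi_lambda _ fun b => ((continuous_kv g).comp (continuous_entry_real a b)).measurable

lemma spinProd_mk (L : List ℕ) (i : ℕ) (R : OArr) : spinProd L i (mkArr R) = 1 := by
  induction L with
  | nil => simp [spinProd]
  | cons a L ih =>
    simp only [spinProd, List.map_cons, List.prod_cons] at ih ⊢
    rw [ih]
    simp [mkArr, spin]

lemma rset_mk (L : List ℕ) (R : OArr) : rset L (mkArr R) = 1 := by
  refine Tendsto.limsup_eq (tendsto_const_nhds.congr fun k => ?_)
  simp [spinProd_mk]

lemma rbar_mk (a b : ℕ) (R : OArr) : rbar a b (mkArr R) = 1 / 2 + (R a b : ℝ) / 4 := by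
  rw [rbar, tsum_eq_sum (s := Finset.range 2) fun g hg => ?_]
  · simp [Finset.sum_range_succ, kWeight, mkArr, kv]
    ring
  · simp only [Finset.mem_range, not_lt] at hg
    simp [mkArr, kv, show g ≠ 0 by omega, show g ≠ 1 by omega]

/-- The law of the array of a limit overlap array. -/
def arrOfLim (μ : Measure OArr) : Measure Arr := μ.map mkArr

variable {μ : Measure OArr}

lemma ae_arr {p : Arr → Prop} (hm : MeasurableSet {ω | p ω}) (h : ∀ᵐ R ∂μ, p (mkArr R)) :
    ∀ᵐ ω ∂arrOfLim μ, p ω :=
  (ae_map_iff measurable_mkArr.aemeasurable hm).2 h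

lemma measurable_kernel (g a b : ℕ) : Measurable fun ω : Arr => ω.2 g a b := by fun_prop

theorem isGGArray (h : IsOLim μ) : IsGGArray (arrOfLim μ) := by
  have := h.prob
  have hν : IsProbabilityMeasure (arrOfLim μ) :=
    Measure.isProbabilityMeasure_map measurable_mkArr.aemeasurable
  refine
    { prob := hν
      exch_rep := fun π => ?_
      exch_site := fun π => ?_
      symm := fun g a b => ?_
      bound := fun g a b => ?_
      diag := fun g => ?_
      psd := fun g n c => ?_
      overlap_zero := fun a b => ?_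
      magnetisation := ⟨1, fun a => ?_⟩
      gg := fun n hn F k hF hk hFb hkb => ?_ }
  · have hp : Measurable (permRep π) := by unfold permRep; fun_prop
    rw [arrOfLim, Measure.map_map hp measurable_mkArr]
    conv_rhs => rw [← h.perm π, Measure.map_map measurable_mkArr (continuous_permO π).measurable]
    rfl
  · have hp : Measurable (permSite π) := by unfold permSite; fun_prop
    rw [arrOfLim, Measure.map_map hp measurable_mkArr]
    rfl
  · exact ae_arr (measurableSet_eq_fun (measurable_kernel g a b) (measurable_kernel g b a))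
      ((h.symm a b).mono fun R hR => by simp [mkArr, hR])
  · refine ae_arr (measurableSet_le (measurable_kernel g a b).abs measurable_const)
      (Eventually.of_forall fun R => ?_)
    simp only [mkArr, kv]
    split_ifs <;> simp [abs_le.2 (R a b).2]
  · refine ⟨if g < 2 then 1 else 0, fun a => ae_arr
      (measurableSet_eq_fun (measurable_kernel g a a) measurable_const)
      ((h.diag a).mono fun R hR => ?_)⟩
    simp only [mkArr, kv, hR]
    split_ifs <;> first | rfl | omega
  · refine ae_arr (measurableSet_le measurable_const (Finset.measurable_fun_sum _ fun a _ =>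
      Finset.measurable_fun_sum _ fun b _ => (measurable_kernel g a b).const_mul (c a * c b)))
      ((h.psd n c).mono fun R hR => ?_)
    simp only [mkArr, kv]
    split_ifs
    · simp only [mul_one, ← Finset.mul_sum, ← Finset.sum_mul]
      exact mul_self_nonneg _
    · exact hR
    · simp
  · exact ae_arr (measurableSet_eq_fun (measurable_kernel 0 a b) (measurable_rset _))
      (Eventually.of_forall fun R => Eq.trans (by simp [mkArr, kv]) (rset_mk _ R).symm)
  · exact ae_arr (measurableSet_eq_fun (measurable_rset _) measurable_const)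
      (Eventually.of_forall fun R => rset_mk _ R)
  · obtain ⟨m, rfl⟩ : ∃ m, n = m + 1 := ⟨n - 1, by omega⟩
    let F' : Blk (m + 1) → ℝ := fun z => F (fun _ _ => true, fun g a b => kv g (z a b))
    let k' : Set.Icc (-1 : ℝ) 1 → ℝ := fun x => k fun g => kv g x
    have hF' : Measurable F' := hF.comp (measurable_const.prodMk <| measurable_pi_lambda _ fun g =>
      measurable_pi_lambda _ fun a => measurable_pi_lambda _ fun b =>
        (continuous_kv g).measurable.comp (measurable_subtype_coe.comp
          ((measurable_pi_apply b).comp (measurable_pi_apply a))))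
    have hk' : Measurable k' := hk.comp (measurable_pi_lambda _ fun g =>
      (continuous_kv g).measurable.comp measurable_subtype_coe)
    have hrep : Measurable (repData (m + 1)) := by unfold repData; fun_prop
    have hkv : ∀ b, Measurable (kvec 0 b) := fun b => by unfold kvec; fun_prop
    have e1 : ∀ b, ∫ ω, F (repData (m + 1) ω) * k (kvec 0 b ω) ∂arrOfLim μ =
        ∫ R, F' (blk (m + 1) R) * k' (R 0 b) ∂μ := fun b =>
      integral_map measurable_mkArr.aemeasurable
        ((hF.comp hrep).mul (hk.comp (hkv b))).aestronglyMeasurable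
    have e2 : ∫ ω, F (repData (m + 1) ω) ∂arrOfLim μ = ∫ R, F' (blk (m + 1) R) ∂μ :=
      integral_map measurable_mkArr.aemeasurable (hF.comp hrep).aestronglyMeasurable
    have e3 : ∫ ω, k (kvec 0 1 ω) ∂arrOfLim μ = ∫ R, k' (R 0 1) ∂μ :=
      integral_map measurable_mkArr.aemeasurable (hk.comp (hkv 1)).aestronglyMeasurable
    have := h.gg m F' k' hF' hk' (fun z => hFb _) (fun z => hkb _)
    rw [e2, e3, Finset.sum_Ico_eq_sum_range, Finset.sum_range]
    simp only [e1]
    push_cast
    rw [this]
    congr 1
    exact Finset.sum_congr rfl fun l _ => by rw [add_comm 1 (l : ℕ)]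

/-- Overlaps are nonnegative. -/
theorem ae_nonneg (h : IsOLim μ) {ρ : ℝ} (hT : IsTreeArray (arrOfLim μ) ρ) {a b : ℕ}
    (hab : a ≠ b) : ∀ᵐ R ∂μ, 0 ≤ (R a b : ℝ) := by
  have := h.prob
  have := hT.prob
  suffices key : ∀ η : ℝ, 0 < η → ∀ᵐ R ∂μ, -η ≤ (R a b : ℝ) by
    filter_upwards [ae_all_iff.2 fun k : ℕ => key (1 / ((k : ℝ) + 1)) (by positivity)] with R hR
    by_contra hn
    obtain ⟨k, hk⟩ := exists_nat_one_div_lt (show (0 : ℝ) < -(R a b : ℝ) by linarith)
    linarith [hR k]
  intro η hη
  set t : ℝ := 1 / 2 - η / 4 with ht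
  have hsplit : ∀ R : OArr, ∀ c d : ℕ, rbar c d (mkArr R) < t ↔ (R c d : ℝ) < -η := fun R c d => by
    rw [rbar_mk, ht]
    constructor <;> intro <;> linarith
  have hlaw : ∀ (c d : ℕ), c ≠ d → ∀ s : Set ℝ, MeasurableSet s →
      (overlapLaw (arrOfLim μ)).real s = μ.real {R | rbar c d (mkArr R) ∈ s} := fun c d hcd s hs => by
    rw [← map_rbar hT.toIsGGArray hcd, arrOfLim,
      Measure.map_map (measurable_rbar c d) measurable_mkArr,
      map_measureReal_apply ((measurable_rbar c d).comp measurable_mkArr) hs]
    rfl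
  by_contra hbad
  have hA : 0 < (overlapLaw (arrOfLim μ)).real (Set.Iio t) := by
    rw [hlaw a b hab _ measurableSet_Iio]
    refine lt_of_le_of_ne measureReal_nonneg fun e => hbad ?_
    have : μ {R | rbar a b (mkArr R) ∈ Set.Iio t} = 0 := (measureReal_eq_zero_iff).1 e.symm
    filter_upwards [measure_eq_zero_iff_ae_notMem.1 this] with R hR
    exact not_lt.1 fun hlt => hR ((hsplit R a b).2 hlt)
  obtain ⟨n, hn⟩ : ∃ n : ℕ, 1 < η * ((n : ℝ) - 1) := by
    obtain ⟨n, hn⟩ := exists_nat_gt (1 / η + 1)
    exact ⟨n, by rw [← div_lt_iff₀' hη]; linarith⟩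
  obtain ⟨R, hpsd, hneg⟩ : ∃ R : OArr, (0 ≤ ∑ c : Fin n, ∑ d : Fin n, (R c d : ℝ)) ∧
      ∀ c d : Fin n, c ≠ d → (R c d : ℝ) < -η := by
    have hpsd : ∀ᵐ R ∂μ, 0 ≤ ∑ c : Fin n, ∑ d : Fin n, (R c d : ℝ) := by
      filter_upwards [h.psd n fun _ => 1] with R hR
      simpa using hR
    by_cases hB : (overlapLaw (arrOfLim μ)).real (Set.Ici t) = 0
    · have hall : ∀ᵐ R ∂μ, ∀ c d : Fin n, c ≠ d → (R c d : ℝ) < -η := by
        refine ae_all_iff.2 fun c => ae_all_iff.2 fun d => ?_
        by_cases hcd : c = d
        · exact Eventually.of_forall fun R h => absurd hcd h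
        rw [hlaw c d (Fin.val_ne_of_ne hcd) _ measurableSet_Ici, measureReal_eq_zero_iff] at hB
        filter_upwards [measure_eq_zero_iff_ae_notMem.1 hB] with R hR _
        exact (hsplit R c d).1 (not_le.1 fun hle => hR hle)
      exact (hpsd.and hall).exists
    · let lev : ℝ → Fin (1 + 1) := fun x => if x < t then 0 else 1
      have hl : IsLevel (arrOfLim μ) lev := by
        refine ⟨fun x y hxy => ?_, Measurable.ite measurableSet_Iio measurable_const
          measurable_const, fun p => ?_⟩
        · simp only [lev]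
          split_ifs with h1 h2
          · exact le_rfl
          · exact Fin.zero_le _
          · linarith
          · exact le_rfl
        · fin_cases p
          · refine lt_of_lt_of_eq hA (congrArg _ ?_)
            ext x
            simp only [lev, Set.mem_preimage, Set.mem_singleton_iff, Set.mem_Iio]
            split_ifs with h1 <;> simp [h1]
          · refine lt_of_lt_of_eq (lt_of_le_of_ne measureReal_nonneg (Ne.symm hB)) (congrArg _ ?_)
            ext x
            simp only [lev, Set.mem_preimage, Set.mem_singleton_iff, Set.mem_Ici, ← not_lt]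
            split_ifs with h1 <;> simp [h1]
      let v : Shape 1 n := fun c d => if c = d then Fin.last 1 else 0
      have hv : IsUltra v := by
        refine ⟨fun c => if_pos rfl, fun c d => ?_, fun c d e => ?_⟩
        · simp only [v, eq_comm]
        · simp only [v]
          split_ifs <;> simp_all
      have hpos := shp_pos hT hl n v hv
      rw [arrOfLim, map_measureReal_apply measurable_mkArr (measurableSet_shp hl n v)] at hpos
      by_contra hno
      refine hpos.ne' ((measureReal_eq_zero_iff).2 (measure_eq_zero_iff_ae_notMem.2 ?_))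
      filter_upwards [hpsd] with R hR hmem
      refine hno ⟨R, hR, fun c d hcd => (hsplit R c d).1 ?_⟩
      have e := congrFun (congrFun (hmem : shp lev n (mkArr R) = v) c) d
      simp only [shp, shapeOf, if_neg hcd, v, tmat, idRep, lev] at e
      split_ifs at e with h1
      · exact h1
      · exact absurd e (by decide)
  have hle : ∑ c : Fin n, ∑ d : Fin n, (R c d : ℝ) ≤
      ∑ c : Fin n, ∑ d : Fin n, if c = d then (1 : ℝ) else -η := by
    refine Finset.sum_le_sum fun c _ => Finset.sum_le_sum fun d _ => ?_
    split_ifs with h1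
    · exact (R c d).2.2
    · exact (hneg c d h1).le
  have hval : ∀ c : Fin n, (∑ d : Fin n, if c = d then (1 : ℝ) else -η) = 1 - η * ((n : ℝ) - 1) :=
    fun c => by
      have : ∀ d : Fin n, (if c = d then (1 : ℝ) else -η) = (if c = d then 1 + η else 0) - η :=
        fun d => by split_ifs <;> ring
      simp only [this, Finset.sum_sub_distrib, Finset.sum_ite_eq, Finset.mem_univ, if_true]
      simp
      ring
  rw [Finset.sum_congr rfl fun c _ => hval c, Finset.sum_const, Finset.card_univ,
    Fintype.card_fin, nsmul_eq_mul] at hle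
  have hn0 : (1 : ℝ) ≤ n := by
    by_contra hlt
    nlinarith
  nlinarith

/-- A limit array is within `1 / K` of a path. -/
theorem exists_path (h : IsOLim μ) {ρ : ℝ} (hT : IsTreeArray (arrOfLim μ) ρ) (K : ℕ) :
    ∃ ξ : Path, ∀ n : ℕ, ∃ T : OArr → Fin n → Fin n → ℝ,
      (∀ a b, Measurable fun R => T R a b) ∧ (∀ R a b, |T R a b| ≤ 1) ∧
      (∀ᵐ R ∂μ, ∀ a b, |T R a b - (R a b : ℝ)| ≤ 1 / ((K : ℝ) + 1)) ∧
      ∀ F : (Fin n → Fin n → ℝ) → ℝ, Continuous F → ξ.treeExp n F = ∫ R, F (T R) ∂μ := by
  classical
  have := h.prob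
  have := hT.prob
  set k : ℝ := (K : ℝ) + 1 with hk
  have hk0 : 0 < k := by positivity
  let ι : ℝ → ℤ := fun x => ⌊k * (4 * (x - 1 / 2))⌋
  have hι : Monotone ι := fun x y hxy =>
    Int.floor_le_floor (mul_le_mul_of_nonneg_left (by linarith) hk0.le)
  obtain ⟨r, lev, cell, hl, -, hae⟩ := exists_level hT hι
  have hrep : ∀ᵐ R ∂μ, ∀ a b : ℕ, a ≠ b →
      cell (lev (rbar a b (mkArr R))) = ⌊k * (R a b : ℝ)⌋ := by
    filter_upwards [ae_of_ae_map measurable_mkArr.aemeasurable hae] with R hR a b hab
    rw [hR a b hab]
    simp only [ι, rbar_mk]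
    congr 2
    ring
  have hcell : Monotone cell := by
    intro p p' hpp
    rcases hpp.eq_or_lt with rfl | hlt
    · exact le_rfl
    have hwit : ∀ p, ∃ x, lev x = p ∧ cell p = ι x := by
      intro p
      by_contra hno
      refine (hl.mass p).ne' ?_
      rw [← map_rbar hT.toIsGGArray zero_ne_one, map_measureReal_apply (measurable_rbar 0 1)
        (hl.meas (measurableSet_singleton p))]
      refine (measureReal_eq_zero_iff).2 (measure_eq_zero_iff_ae_notMem.2 ?_)
      filter_upwards [hae] with ω hω hmem
      exact hno ⟨rbar 0 1 ω, hmem, by rw [← hω 0 1 zero_ne_one, (hmem : lev (rbar 0 1 ω) = p)]⟩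
    obtain ⟨x, hx, ex⟩ := hwit p
    obtain ⟨y, hy, ey⟩ := hwit p'
    rw [ex, ey]
    refine hι (not_lt.1 fun hyx => ?_)
    have := hl.mono hyx.le
    rw [hx, hy] at this
    exact absurd this (not_le.2 hlt)
  let q : Fin (r + 1) → ℝ := fun p => max 0 (min 1 ((cell p : ℝ) / k))
  have hpad : ∀ i : Fin r, padded (expo (arrOfLim μ) lev) (i.val + 1) = expo (arrOfLim μ) lev i :=
    fun i => by simp [padded, i.isLt]
  have hinc : ∀ p p' : ℕ, p < p' → p' ≤ r + 1 →
      padded (expo (arrOfLim μ) lev) p < padded (expo (arrOfLim μ) lev) p' := by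
    intro p p' hlt hle
    induction p', hlt using Nat.le_induction with
    | base => exact padded_lt_succ hT hl (by omega)
    | succ p' hp ih => exact (ih (by omega)).trans (padded_lt_succ hT hl (by omega))
  have hpath : IsPath (expo (arrOfLim μ) lev) q := by
    refine ⟨fun i => ?_, fun i => ?_, fun i i' hii => ?_, fun p p' hpp => ?_, le_max_left _ _,
      max_le zero_le_one (min_le_left _ _)⟩
    · have := hinc 0 (i.val + 1) (Nat.succ_pos _) (by omega)
      rwa [hpad, show padded (expo (arrOfLim μ) lev) 0 = 0 from if_pos rfl] at this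
    · have := hinc (i.val + 1) (r + 1) (by omega) le_rfl
      rwa [hpad, show padded (expo (arrOfLim μ) lev) (r + 1) = 1 by simp [padded]] at this
    · have := hinc (i.val + 1) (i'.val + 1) (by simpa using hii) (by omega)
      rwa [hpad, hpad] at this
    · exact max_le_max le_rfl (min_le_min le_rfl
        (div_le_div_of_nonneg_right (Int.cast_le.2 (hcell hpp)) hk0.le))
  let ξ : Path := ⟨r, expo (arrOfLim μ) lev, q, hpath⟩
  refine ⟨ξ, fun n => ⟨fun R => ξ.gram (shp lev n (mkArr R)), fun a b => ?_, fun R a b => ?_,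
    ?_, fun F hF => ?_⟩⟩
  · exact (measurable_of_finite (fun v : Shape r n => ξ.gram v a b)).comp
      ((measurable_shp hl n).comp measurable_mkArr)
  · simp only [Path.gram]
    split_ifs with hab
    · simp
    · exact abs_le.2 ⟨le_trans (by norm_num) (le_max_left _ _), max_le zero_le_one (min_le_left _ _)⟩
  · have hnn : ∀ᵐ R ∂μ, ∀ a b : Fin n, a ≠ b → 0 ≤ (R a b : ℝ) := by
      refine ae_all_iff.2 fun a => ae_all_iff.2 fun b => ?_
      by_cases hab : a = b
      · exact Eventually.of_forall fun R h => absurd hab h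
      · exact (ae_nonneg h hT (Fin.val_ne_of_ne hab)).mono fun R hR _ => hR
    have hdiag : ∀ᵐ R ∂μ, ∀ a : Fin n, (R a a : ℝ) = 1 := ae_all_iff.2 fun a => h.diag a
    filter_upwards [hrep, hnn, hdiag] with R hR hn hd a b
    simp only [Path.gram]
    split_ifs with hab
    · subst hab
      simp [hd a, hk0.le]
    · simp only [ξ, q, shp, shapeOf, if_neg hab, tmat, idRep, hR a b (Fin.val_ne_of_ne hab)]
      have h1 := Int.floor_le (k * (R a b : ℝ))
      have h2 := Int.sub_one_lt_floor (k * (R a b : ℝ))
      set x := (R a b : ℝ)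
      set c := (⌊k * x⌋ : ℝ)
      have hx0 : 0 ≤ x := hn a b hab
      have hx1 : x ≤ 1 := (R a b).2.2
      have u1 : c / k ≤ x := (div_le_iff₀ hk0).2 (by linarith)
      have u2 : x - 1 / k ≤ c / k := by
        rw [le_div_iff₀ hk0, sub_mul, div_mul_cancel₀ _ hk0.ne']
        linarith
      rw [abs_le]
      constructor
      · have := le_max_right 0 (min 1 (c / k))
        have := min_eq_right (u1.trans hx1)
        linarith
      · have : max 0 (min 1 (c / k)) ≤ x := max_le hx0 ((min_le_right _ _).trans u1)
        have : 0 < 1 / k := by positivity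
        linarith
  · have hm : Measurable fun R => shp lev n (mkArr R) :=
      (measurable_shp hl n).comp measurable_mkArr
    have e : ∫ R, F (ξ.gram (shp lev n (mkArr R))) ∂μ =
        ∫ v, F (ξ.gram v) ∂μ.map fun R => shp lev n (mkArr R) :=
      (integral_map hm.aemeasurable
        (measurable_of_finite fun v : Shape r n => F (ξ.gram v)).aestronglyMeasurable).symm
    have : IsProbabilityMeasure (μ.map fun R => shp lev n (mkArr R)) :=
      Measure.isProbabilityMeasure_map hm.aemeasurable
    rw [e, integral_fintype Integrable.of_finite, Path.treeExp]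
    refine Finset.sum_congr rfl fun v _ => ?_
    rw [smul_eq_mul]
    congr 1
    rw [← shp_law hT hl n v, arrOfLim, map_measureReal_apply measurable_mkArr
      (measurableSet_shp hl n v), map_measureReal_apply hm (measurableSet_singleton v)]
    rfl

/-- Module E: the identities force asymptotically a cascade. -/
theorem treeApprox : TreeApproxStmt := by
  intro N S hN hS δ hδ hgg
  obtain ⟨φ, μ, hφ, hμ, hconv⟩ := exists_olim hN hS hδ hgg
  have := hμ.prob
  obtain ⟨ρ, hT⟩ := Vale.Agent.P168.Tree.tree_stmt (arrOfLim μ) (isGGArray hμ)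
  choose ξ hξ using exists_path hμ hT
  refine ⟨φ, ξ, hφ, fun n F hF => ?_⟩
  choose T hTm hTb hTe hTF using fun K => hξ K n
  have hlim : Tendsto (fun K => (ξ K).treeExp n F) atTop
      (𝓝 (∫ R, F (fun a b => (blk n R a b : ℝ)) ∂μ)) := by
    simp only [fun K => hTF K F hF]
    obtain ⟨C, hC⟩ := (isCompact_Icc (a := fun (_ : Fin n) (_ : Fin n) => (-1 : ℝ))
      (b := fun _ _ => 1)).exists_bound_of_continuousOn hF.continuousOn
    refine tendsto_integral_of_dominated_convergence (fun _ => C)
      (fun K => (hF.measurable.comp (measurable_pi_lambda _ fun a => measurable_pi_lambda _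
        fun b => hTm K a b)).aestronglyMeasurable) (integrable_const C)
      (fun K => Eventually.of_forall fun R => hC _ ⟨fun a b => (abs_le.1 (hTb K R a b)).1,
        fun a b => (abs_le.1 (hTb K R a b)).2⟩) ?_
    filter_upwards [ae_all_iff.2 hTe] with R hR
    refine (hF.tendsto _).comp (tendsto_pi_nhds.2 fun a => tendsto_pi_nhds.2 fun b => ?_)
    exact tendsto_iff_norm_sub_tendsto_zero.2 (squeeze_zero (fun K => norm_nonneg _)
      (fun K => (Real.norm_eq_abs _).trans_le (hR K a b)) tendsto_one_div_add_atTop_nhds_zero_nat)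
  simpa using (hconv n F hF).sub hlim

end Vale.Agent.P157.Parisi.TreeApprox
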