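import Vale.Agent.P157.Parisi.TreeApprox.Sample

/-! Limit overlap arrays of states satisfying the identities asymptotically. -/

noncomputable section

open MeasureTheory ProbabilityTheory Filter
open scoped BigOperators ENNReal Topology

namespace Vale.Agent.P157.Parisi.TreeApprox

/-- Overlaps of `n` replicas, as elements of `[-1, 1]`. -/
abbrev Blk (n : ℕ) := Fin n → Fin n → Set.Icc (-1 : ℝ) 1

/-- The first block of an array. -/
def blk (n : ℕ) (R : OArr) : Blk n := fun a b => R a b

lemma continuous_blk (n : ℕ) : Continuous (blk n) := by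
  unfold blk
  fun_prop

lemma continuous_entry (a b : ℕ) : Continuous fun R : OArr => R a b := by fun_prop

lemma continuous_entry_real (a b : ℕ) : Continuous fun R : OArr => (R a b : ℝ) :=
  continuous_subtype_val.comp (continuous_entry a b)

/-- A limit array: exchangeable, nonnegative definite, unit diagonal, exact identities. -/
structure IsOLim (μ : Measure OArr) : Prop where
  prob : IsProbabilityMeasure μ
  perm : ∀ π : Equiv.Perm ℕ, μ.map (permO π) = μ
  symm : ∀ a b, ∀ᵐ R ∂μ, R a b = R b a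
  diag : ∀ a, ∀ᵐ R ∂μ, (R a a : ℝ) = 1
  psd : ∀ n, ∀ c : Fin n → ℝ, ∀ᵐ R ∂μ, 0 ≤ ∑ a, ∑ b, c a * c b * (R a b : ℝ)
  gg : ∀ (n : ℕ) (F : Blk (n + 1) → ℝ) (h : Set.Icc (-1 : ℝ) 1 → ℝ), Measurable F → Measurable h →
    (∀ z, |F z| ≤ 1) → (∀ z, |h z| ≤ 1) →
    ((n : ℝ) + 1) * ∫ R, F (blk (n + 1) R) * h (R 0 (n + 1)) ∂μ =
      (∫ R, F (blk (n + 1) R) ∂μ) * (∫ R, h (R 0 1) ∂μ) +
        ∑ l : Fin n, ∫ R, F (blk (n + 1) R) * h (R 0 (l + 1)) ∂μ

variable {μ : Measure OArr}

lemma integrable_cont [IsFiniteMeasure μ] {f : OArr → ℝ} (hf : Continuous f) :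
    Integrable f μ := by
  obtain ⟨C, hC⟩ := (isCompact_univ (X := OArr)).exists_bound_of_continuousOn hf.continuousOn
  exact Integrable.of_bound hf.measurable.aestronglyMeasurable C
    (Eventually.of_forall fun R => hC R trivial)

lemma integrable_bdd {X : Type*} [MeasurableSpace X] {ρ : Measure X} [IsFiniteMeasure ρ]
    {f : X → ℝ} (hf : Measurable f) {C : ℝ} (h : ∀ x, |f x| ≤ C) : Integrable f ρ :=
  Integrable.of_bound hf.aestronglyMeasurable C
    (Eventually.of_forall fun x => (Real.norm_eq_abs _).trans_le (h x))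

/-- The identities extend from powers to all bounded measurable functions. -/
lemma gg_extend [IsProbabilityMeasure μ] (n : ℕ)
    (hpow : ∀ F : Blk (n + 1) → ℝ, Continuous F → ∀ k : ℕ,
      ((n : ℝ) + 1) * ∫ R, F (blk (n + 1) R) * (R 0 (n + 1) : ℝ) ^ k ∂μ =
        (∫ R, F (blk (n + 1) R) ∂μ) * (∫ R, (R 0 1 : ℝ) ^ k ∂μ) +
          ∑ l : Fin n, ∫ R, F (blk (n + 1) R) * (R 0 (l + 1) : ℝ) ^ k ∂μ)
    {F : Blk (n + 1) → ℝ} {h : Set.Icc (-1 : ℝ) 1 → ℝ} (hF : Measurable F) (hh : Measurable h)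
    (hFb : ∀ z, |F z| ≤ 1) (hhb : ∀ z, |h z| ≤ 1) :
    ((n : ℝ) + 1) * ∫ R, F (blk (n + 1) R) * h (R 0 (n + 1)) ∂μ =
      (∫ R, F (blk (n + 1) R) ∂μ) * (∫ R, h (R 0 1) ∂μ) +
        ∑ l : Fin n, ∫ R, F (blk (n + 1) R) * h (R 0 (l + 1)) ∂μ := by
  set Φ := blk (n + 1)
  have hΦ : Continuous Φ := continuous_blk _
  -- polynomials
  have hpoly : ∀ F : Blk (n + 1) → ℝ, Continuous F → ∀ P : Polynomial ℝ,
      ((n : ℝ) + 1) * ∫ R, F (Φ R) * P.eval (R 0 (n + 1) : ℝ) ∂μ =
        (∫ R, F (Φ R) ∂μ) * (∫ R, P.eval (R 0 1 : ℝ) ∂μ) +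
          ∑ l : Fin n, ∫ R, F (Φ R) * P.eval (R 0 (l + 1) : ℝ) ∂μ := by
    intro F hF P
    have hc : ∀ (Q : Polynomial ℝ) (b : ℕ), Continuous fun R : OArr => Q.eval (R 0 b : ℝ) :=
      fun Q b => Q.continuous.comp (continuous_entry_real 0 b)
    induction P using Polynomial.induction_on' with
    | add P Q hP hQ =>
      have e : ∀ b : ℕ, ∫ R, F (Φ R) * (P + Q).eval (R 0 b : ℝ) ∂μ =
          (∫ R, F (Φ R) * P.eval (R 0 b : ℝ) ∂μ) + ∫ R, F (Φ R) * Q.eval (R 0 b : ℝ) ∂μ :=
        fun b => by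
          simp only [Polynomial.eval_add, mul_add]
          exact integral_add (integrable_cont ((hF.comp hΦ).mul (hc P b)))
            (integrable_cont ((hF.comp hΦ).mul (hc Q b)))
      have e1 : ∫ R, (P + Q).eval (R 0 1 : ℝ) ∂μ =
          (∫ R, P.eval (R 0 1 : ℝ) ∂μ) + ∫ R, Q.eval (R 0 1 : ℝ) ∂μ := by
        simp only [Polynomial.eval_add]
        exact integral_add (integrable_cont (hc P 1)) (integrable_cont (hc Q 1))
      simp only [e, e1, Finset.sum_add_distrib]
      linear_combination hP + hQ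
    | monomial k c =>
      have e : ∀ b : ℕ, ∫ R, F (Φ R) * (Polynomial.monomial k c).eval (R 0 b : ℝ) ∂μ =
          c * ∫ R, F (Φ R) * (R 0 b : ℝ) ^ k ∂μ := fun b => by
        rw [← integral_const_mul]
        exact integral_congr_ae (Eventually.of_forall fun R => by simp; ring)
      have e1 : ∫ R, (Polynomial.monomial k c).eval (R 0 1 : ℝ) ∂μ =
          c * ∫ R, (R 0 1 : ℝ) ^ k ∂μ := by
        rw [← integral_const_mul]
        exact integral_congr_ae (Eventually.of_forall fun R => by simp)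
      simp only [e, e1, ← Finset.mul_sum]
      linear_combination c * hpow F hF k
  -- continuous functions
  have hcont : ∀ F : Blk (n + 1) → ℝ, Continuous F → ∀ g : Set.Icc (-1 : ℝ) 1 → ℝ, Continuous g →
      ((n : ℝ) + 1) * ∫ R, F (Φ R) * g (R 0 (n + 1)) ∂μ =
        (∫ R, F (Φ R) ∂μ) * (∫ R, g (R 0 1) ∂μ) +
          ∑ l : Fin n, ∫ R, F (Φ R) * g (R 0 (l + 1)) ∂μ := by
    intro F hF g hg
    obtain ⟨C, hC⟩ := (isCompact_univ (X := Blk (n + 1))).exists_bound_of_continuousOn
      hF.continuousOn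
    have hC0 : 0 ≤ C := (norm_nonneg _).trans (hC (fun _ _ => toI 0) trivial)
    refine eq_of_forall_dist_le fun ε hε => ?_
    obtain ⟨P, hP⟩ := exists_polynomial_near_of_continuousOn (-1) 1 (fun x => g (toI x))
      (hg.comp continuous_projIcc).continuousOn (ε / (2 * ((n : ℝ) + 1) * (C + 1))) (by positivity)
    set η := ε / (2 * ((n : ℝ) + 1) * (C + 1)) with hη
    have hη0 : 0 ≤ η := by positivity
    have hd : ∀ x : Set.Icc (-1 : ℝ) 1, |P.eval (x : ℝ) - g x| ≤ η := fun x => by
      have := hP x x.2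
      simp only [toI, Set.projIcc_val] at this
      exact this.le
    have hdiff : ∀ b : ℕ, |(∫ R, F (Φ R) * P.eval (R 0 b : ℝ) ∂μ) -
        ∫ R, F (Φ R) * g (R 0 b) ∂μ| ≤ C * η := fun b => by
      rw [← integral_sub (integrable_cont ((hF.comp' hΦ).fun_mul
        (P.continuous.comp' (continuous_entry_real 0 b))))
        (integrable_cont ((hF.comp' hΦ).fun_mul (hg.comp' (continuous_entry 0 b))))]
      rw [← Real.norm_eq_abs]
      refine (norm_integral_le_of_norm_le_const (C := C * η)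
        (Eventually.of_forall fun R => ?_)).trans_eq (by simp)
      rw [← mul_sub, norm_mul]
      exact mul_le_mul (hC _ trivial) ((Real.norm_eq_abs _).trans_le (hd _)) (norm_nonneg _) hC0
    have hd1 : |(∫ R, P.eval (R 0 1 : ℝ) ∂μ) - ∫ R, g (R 0 1) ∂μ| ≤ η := by
      rw [← integral_sub (integrable_cont (P.continuous.comp' (continuous_entry_real 0 1)))
        (integrable_cont (hg.comp' (continuous_entry 0 1)))]
      simpa using norm_integral_le_of_norm_le_const (μ := μ) (C := η)
        (Eventually.of_forall fun R => (Real.norm_eq_abs _).trans_le (hd _))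
    have hFi : |∫ R, F (Φ R) ∂μ| ≤ C := by
      simpa using norm_integral_le_of_norm_le_const (μ := μ) (C := C)
        (f := fun R => F (Φ R)) (Eventually.of_forall fun R => hC _ trivial)
    have hs : |(∑ l : Fin n, ∫ R, F (Φ R) * P.eval (R 0 (l + 1) : ℝ) ∂μ) -
        ∑ l : Fin n, ∫ R, F (Φ R) * g (R 0 (l + 1)) ∂μ| ≤ n * (C * η) := by
      rw [← Finset.sum_sub_distrib]
      refine (Finset.abs_sum_le_sum_abs _ _).trans ?_
      refine (Finset.sum_le_sum fun l _ => hdiff _).trans_eq ?_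
      simp
    have hp := hpoly F hF P
    have h1 : |(((n : ℝ) + 1) * ∫ R, F (Φ R) * P.eval (R 0 (n + 1) : ℝ) ∂μ) -
        ((n : ℝ) + 1) * ∫ R, F (Φ R) * g (R 0 (n + 1)) ∂μ| ≤ ((n : ℝ) + 1) * (C * η) := by
      rw [← mul_sub, abs_mul, abs_of_nonneg (by positivity : (0 : ℝ) ≤ (n : ℝ) + 1)]
      exact mul_le_mul_of_nonneg_left (hdiff _) (by positivity)
    have h2 : |(∫ R, F (Φ R) ∂μ) * (∫ R, P.eval (R 0 1 : ℝ) ∂μ) -
        (∫ R, F (Φ R) ∂μ) * ∫ R, g (R 0 1) ∂μ| ≤ C * η := by
      rw [← mul_sub, abs_mul]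
      exact mul_le_mul hFi hd1 (abs_nonneg _) hC0
    have hb : (2 * (n : ℝ) + 2) * (C * η) ≤ ε := by
      rw [hη]
      have : C / (C + 1) ≤ 1 := (div_le_one (by linarith)).2 (by linarith)
      calc (2 * (n : ℝ) + 2) * (C * (ε / (2 * ((n : ℝ) + 1) * (C + 1))))
          = ε * (C / (C + 1)) := by field_simp
        _ ≤ ε * 1 := mul_le_mul_of_nonneg_left this hε.le
        _ = ε := mul_one ε
    rw [Real.dist_eq]
    rw [abs_le] at h1 h2 hs ⊢
    constructor <;> linarith
  -- two measures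
  set ρ₁ : Measure (Blk (n + 1) × Set.Icc (-1 : ℝ) 1) :=
    ∑ _i : Fin (n + 1), μ.map fun R => (Φ R, R 0 (n + 1)) with hρ₁
  set ρ₂ : Measure (Blk (n + 1) × Set.Icc (-1 : ℝ) 1) :=
    (μ.map Φ).prod (μ.map fun R => R 0 1) + ∑ l : Fin n, μ.map fun R => (Φ R, R 0 (l + 1)) with hρ₂
  have hm : ∀ b : ℕ, Measurable fun R : OArr => (Φ R, R 0 b) := fun b =>
    hΦ.measurable.prodMk (continuous_entry 0 b).measurable
  have hm1 : Measurable fun R : OArr => R 0 1 := (continuous_entry 0 1).measurable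
  have : IsProbabilityMeasure (μ.map Φ) := Measure.isProbabilityMeasure_map hΦ.measurable.aemeasurable
  have : IsProbabilityMeasure (μ.map fun R : OArr => R 0 1) :=
    Measure.isProbabilityMeasure_map hm1.aemeasurable
  have hval : ∀ (f : Blk (n + 1) → ℝ) (g : Set.Icc (-1 : ℝ) 1 → ℝ) (Cf Cg : ℝ), Measurable f →
      Measurable g → (∀ z, |f z| ≤ Cf) → (∀ z, |g z| ≤ Cg) →
      (∫ p, f p.1 * g p.2 ∂ρ₁ = ((n : ℝ) + 1) * ∫ R, f (Φ R) * g (R 0 (n + 1)) ∂μ) ∧
        ∫ p, f p.1 * g p.2 ∂ρ₂ = (∫ R, f (Φ R) ∂μ) * (∫ R, g (R 0 1) ∂μ) +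
          ∑ l : Fin n, ∫ R, f (Φ R) * g (R 0 (l + 1)) ∂μ := by
    intro f g Cf Cg hf hg hfb hgb
    have hfg : Measurable fun p : Blk (n + 1) × Set.Icc (-1 : ℝ) 1 => f p.1 * g p.2 :=
      (hf.comp measurable_fst).mul (hg.comp measurable_snd)
    have hb : ∀ p : Blk (n + 1) × Set.Icc (-1 : ℝ) 1, |f p.1 * g p.2| ≤ Cf * Cg := fun p => by
      rw [abs_mul]
      exact mul_le_mul (hfb _) (hgb _) (abs_nonneg _) ((abs_nonneg _).trans (hfb p.1))
    have hmap : ∀ b : ℕ, ∫ p, f p.1 * g p.2 ∂μ.map (fun R => (Φ R, R 0 b)) =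
        ∫ R, f (Φ R) * g (R 0 b) ∂μ := fun b =>
      integral_map (hm b).aemeasurable hfg.aestronglyMeasurable
    refine ⟨?_, ?_⟩
    · rw [hρ₁, integral_finsetSum_measure fun i _ => integrable_bdd hfg hb]
      simp [hmap]
    · rw [hρ₂, integral_add_measure (integrable_bdd hfg hb) (integrable_bdd hfg hb),
        integral_finsetSum_measure fun i _ => integrable_bdd hfg hb, integral_prod_mul,
        integral_map hΦ.measurable.aemeasurable hf.aestronglyMeasurable,
        integral_map hm1.aemeasurable hg.aestronglyMeasurable]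
      simp [hmap]
  have heq : ρ₁ = ρ₂ := by
    refine Measure.ext_of_integral_mul_boundedContinuousFunction fun f g => ?_
    obtain ⟨a, b⟩ := hval f g ‖f‖ ‖g‖ f.continuous.measurable g.continuous.measurable
      (fun z => (Real.norm_eq_abs _).symm.trans_le (f.norm_coe_le_norm z))
      (fun z => (Real.norm_eq_abs _).symm.trans_le (g.norm_coe_le_norm z))
    rw [a, b]
    exact hcont f f.continuous g g.continuous
  obtain ⟨a, b⟩ := hval F h 1 1 hF hh hFb hhb
  rw [← a, heq, b]

theorem exists_olim {N : ℕ → ℕ} {S : ∀ j, State (N j)} (hN : Tendsto N atTop atTop)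
    (hS : ∀ j, (S j).IsGood) {δ : ℕ → ℕ → ℝ} (hδ : ∀ p, Tendsto (fun j => δ j p) atTop (𝓝 0))
    (hgg : ∀ j p, GGWithin (S j) p (δ j p)) :
    ∃ (φ : ℕ → ℕ) (μ : Measure OArr), StrictMono φ ∧ IsOLim μ ∧
      ∀ (n : ℕ) (F : (Fin n → Fin n → ℝ) → ℝ), Continuous F →
        Tendsto (fun j => (S (φ j)).repMean n fun σ => F (overlaps σ)) atTop
          (𝓝 (∫ R, F (fun a b => (blk n R a b : ℝ)) ∂μ)) := by
  let x : ℕ → ProbabilityMeasure OArr := fun j => ⟨arrLawS (S j), isProb_arrLawS (hS j)⟩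
  obtain ⟨μ', φ, hφ, hlim'⟩ := CompactSpace.tendsto_subseq x
  set μ : Measure OArr := (μ' : Measure OArr) with hμ
  have hlim : ∀ f : OArr → ℝ, Continuous f →
      Tendsto (fun j => ∫ R, f R ∂arrLawS (S (φ j))) atTop (𝓝 (∫ R, f R ∂μ)) := fun f hf =>
    (ProbabilityMeasure.tendsto_iff_forall_integral_tendsto.1 hlim')
      (BoundedContinuousFunction.mkOfCompact ⟨f, hf⟩)
  have hprob : IsProbabilityMeasure μ := μ'.2
  have haezero : ∀ f : OArr → ℝ, Continuous f → (∀ R, 0 ≤ f R) →
      (∀ᶠ j in atTop, ∫ R, f R ∂arrLawS (S (φ j)) = 0) → ∀ᵐ R ∂μ, f R = 0 := fun f hf h0 h =>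
    (integral_eq_zero_iff_of_nonneg h0 (integrable_cont hf)).1
      (tendsto_nhds_unique (hlim f hf) (tendsto_nhds_of_eventually_eq h))
  have hzero : ∀ (j : ℕ) (f : OArr → ℝ), Measurable f →
      (∀ q, f (sampleMap (S j) q) = 0) → ∫ R, f R ∂arrLawS (S j) = 0 := fun j f hf h => by
    rw [arrLawS, integral_map (measurable_sampleMap (hS j)).aemeasurable hf.aestronglyMeasurable]
    simp [h]
  refine ⟨φ, μ, hφ, ⟨hprob, fun π => ?_, fun a b => ?_, fun a => ?_, fun n c => ?_, ?_⟩, ?_⟩
  · have : IsProbabilityMeasure (μ.map (permO π)) :=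
      Measure.isProbabilityMeasure_map (continuous_permO π).measurable.aemeasurable
    refine ext_of_forall_integral_eq_of_IsFiniteMeasure fun f => ?_
    rw [integral_map (continuous_permO π).measurable.aemeasurable
      f.continuous.measurable.aestronglyMeasurable]
    refine tendsto_nhds_unique (hlim _ (f.continuous.comp (continuous_permO π)))
      ((hlim _ f.continuous).congr fun j => ?_)
    conv_lhs => rw [← arrLawS_perm (hS (φ j)) π]
    exact integral_map (continuous_permO π).measurable.aemeasurable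
      f.continuous.measurable.aestronglyMeasurable
  · have hc : Continuous fun R : OArr => |(R a b : ℝ) - R b a| :=
      ((continuous_entry_real a b).sub (continuous_entry_real b a)).abs
    refine (haezero _ hc (fun R => abs_nonneg _) (Eventually.of_forall fun j => hzero _ _
      hc.measurable fun q => ?_)).mono fun R hR => Subtype.ext (sub_eq_zero.1 (abs_eq_zero.1 hR))
    simp [sampleMap, overlap_comm]
  · have hc : Continuous fun R : OArr => |(R a a : ℝ) - 1| :=
      ((continuous_entry_real a a).sub continuous_const).abs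
    refine (haezero _ hc (fun R => abs_nonneg _)
      (((hN.comp hφ.tendsto_atTop).eventually (eventually_gt_atTop 0)).mono fun j hj => hzero _ _
        hc.measurable fun q => ?_)).mono fun R hR => sub_eq_zero.1 (abs_eq_zero.1 hR)
    simp only [sampleMap, overlap_self hj]
    simp [toI_coe]
  · have hc : Continuous fun R : OArr => max 0 (-∑ a : Fin n, ∑ b : Fin n, c a * c b * (R a b : ℝ)) :=
      continuous_const.max (Continuous.neg (continuous_finsetSum _ fun a _ =>
        continuous_finsetSum _ fun b _ => (continuous_entry_real a b).const_mul _))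
    refine (haezero _ hc (fun R => le_max_left _ _) (Eventually.of_forall fun j => hzero _ _
      hc.measurable fun q => ?_)).mono fun R hR => ?_
    · refine max_eq_left (neg_nonpos.2 ?_)
      simp only [sampleMap, toI_coe (abs_overlap_le _ _)]
      exact overlap_psd (fun a : Fin n => reps (S (φ j)) q a) c
    · have := le_max_right (0 : ℝ) (-∑ a : Fin n, ∑ b : Fin n, c a * c b * (R a b : ℝ))
      linarith
  · intro n F h hF hh hFb hhb
    refine gg_extend n (fun F hF k => ?_) hF hh hFb hhb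
    rcases Nat.eq_zero_or_pos k with rfl | hk
    · simp
      ring
    obtain ⟨p, rfl⟩ := Nat.exists_eq_succ_of_ne_zero hk.ne'
    obtain ⟨C, hC⟩ := (isCompact_univ (X := Blk (n + 1))).exists_bound_of_continuousOn
      hF.continuousOn
    set D := max C 1 with hD
    have hD0 : 0 < D := lt_max_of_lt_right one_pos
    set e := fun j => S (φ j) with he
    have hrep : ∀ (j b : ℕ) (hb : b ≤ n + 1),
        ∫ R, F (blk (n + 1) R) * (R 0 b : ℝ) ^ (p + 1) ∂arrLawS (e j) =
          (e j).repMean (n + 2) fun σ =>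
            F (fun a c => toI (overlap (σ a.castSucc) (σ c.castSucc))) *
              overlap (σ 0) (σ ⟨b, Nat.lt_succ_of_le hb⟩) ^ (p + 1) := fun j b hb => by
      refine integral_arr (hS _) ((hF.comp' (continuous_blk _)).fun_mul
        ((continuous_entry_real 0 b).fun_pow _)).measurable (e := fun l => (l : ℕ))
        Fin.val_injective _ fun q => ?_
      simp only [sampleMap, toI_coe (abs_overlap_le _ _)]
      rfl
    have hlow : ∀ j, ∀ l : Fin n,
        ∫ R, F (blk (n + 1) R) * (R 0 (l + 1) : ℝ) ^ (p + 1) ∂arrLawS (e j) =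
          (e j).repMean (n + 1) fun σ =>
            F (fun a c => toI (overlap (σ a) (σ c))) * overlap (σ 0) (σ l.succ) ^ (p + 1) :=
      fun j l => by
      refine integral_arr (hS _) ((hF.comp' (continuous_blk _)).fun_mul
        ((continuous_entry_real 0 _).fun_pow _)).measurable (e := fun l => (l : ℕ))
        Fin.val_injective _ fun q => ?_
      simp only [sampleMap, toI_coe (abs_overlap_le _ _)]
      rfl
    have hF1 : ∀ j, ∫ R, F (blk (n + 1) R) ∂arrLawS (e j) =
        (e j).repMean (n + 1) fun σ => F (fun a c => toI (overlap (σ a) (σ c))) := fun j =>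
      integral_arr (hS _) (hF.comp (continuous_blk _)).measurable (e := fun l => (l : ℕ))
        Fin.val_injective _ fun q => rfl
    have h2 : ∀ j, ∫ R, (R 0 1 : ℝ) ^ (p + 1) ∂arrLawS (e j) =
        (e j).repMean 2 fun σ => overlap (σ 0) (σ 1) ^ (p + 1) := fun j =>
      integral_arr (hS _) ((continuous_entry_real 0 1).fun_pow _).measurable (e := fun l => (l : ℕ))
        Fin.val_injective _ fun q => by simp [sampleMap, toI_coe (abs_overlap_le _ _)]
    have hlhs := hlim _ ((hF.comp' (continuous_blk (n + 1))).fun_mul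
      ((continuous_entry_real 0 (n + 1)).fun_pow (p + 1)))
    have hrhs := (hlim _ (hF.comp' (continuous_blk (n + 1)))).mul
      (hlim _ ((continuous_entry_real 0 1).fun_pow (p + 1)))
    have hsum := tendsto_finsetSum (Finset.univ : Finset (Fin n)) fun l _ =>
      hlim _ ((hF.comp' (continuous_blk (n + 1))).fun_mul
        ((continuous_entry_real 0 (l + 1)).fun_pow (p + 1)))
    refine sub_eq_zero.1 (tendsto_nhds_unique
      ((hlhs.const_mul ((n : ℝ) + 1)).sub (hrhs.add hsum)) ?_)
    refine squeeze_zero_norm (a := fun j => D * (((n : ℝ) + 1) * δ (φ j) p)) (fun j => ?_) ?_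
    · have hj := hgg (φ j) p n (fun σ => F (fun a c => toI (overlap (σ a) (σ c))) / D) fun σ => by
        rw [abs_div, abs_of_pos hD0, div_le_one hD0, ← Real.norm_eq_abs]
        exact (hC _ trivial).trans (le_max_left _ _)
      rw [Real.norm_eq_abs]
      rw [hF1 j, h2 j, hrep j (n + 1) le_rfl, Finset.sum_congr rfl fun l _ => hlow j l]
      have hdiv : ∀ (m : ℕ) (G : (Fin m → Cube (N (φ j))) → ℝ),
          (e j).repMean m (fun σ => G σ / D) = (e j).repMean m G / D := fun m G => by
        simp only [State.repMean, ← mul_div_assoc, ← Finset.sum_div, integral_div]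
      simp only [div_mul_eq_mul_div] at hj
      rw [hdiv, hdiv, Finset.sum_congr rfl fun l _ => hdiv (n + 1) _, ← Finset.sum_div,
        div_mul_eq_mul_div, ← mul_div_assoc, ← add_div, ← sub_div, abs_div, abs_of_pos hD0,
        div_le_iff₀ hD0] at hj
      rw [mul_comm D]
      exact hj
    · simpa using (((hδ p).comp hφ.tendsto_atTop).const_mul ((n : ℝ) + 1)).const_mul D
  · intro n F hF
    have hc : Continuous fun R : OArr => F fun a b => (blk n R a b : ℝ) :=
      hF.comp (continuous_pi fun a => continuous_pi fun b => continuous_entry_real a b)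
    refine (hlim _ hc).congr fun j => ?_
    refine integral_arr (hS _) hc.measurable (e := fun l : Fin n => (l : ℕ)) Fin.val_injective _
      fun q => congrArg F ?_
    funext a b
    simp [blk, sampleMap, overlaps, toI_coe (abs_overlap_le _ _)]

end Vale.Agent.P157.Parisi.TreeApprox
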