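import Vale.Agent.P157.Parisi.Statements
import Vale.Agent.P168.Limit.Avg

/-! The overlap array of independent replicas of a state. -/

noncomputable section

open MeasureTheory ProbabilityTheory Filter
open scoped BigOperators ENNReal Topology

namespace Vale.Agent.P157.Parisi.TreeApprox

open Vale.Agent.P168 (unif)
open Vale.Agent.P168.Limit (samp measurable_samp unif_map_samp)

/-- Infinite overlap arrays. -/
abbrev OArr := ℕ → ℕ → Set.Icc (-1 : ℝ) 1

/-- A number as an element of `[-1, 1]`. -/
def toI (x : ℝ) : Set.Icc (-1 : ℝ) 1 := Set.projIcc (-1) 1 (by norm_num) x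

lemma toI_coe {x : ℝ} (h : |x| ≤ 1) : (toI x : ℝ) = x := by
  rw [toI, Set.projIcc_of_mem _ (show x ∈ Set.Icc (-1 : ℝ) 1 from abs_le.1 h)]

variable {N : ℕ}

lemma abs_sv (σ : Cube N) (i : Fin N) : |sv σ i| = 1 := by
  rcases Bool.eq_false_or_eq_true (σ i) with h | h <;> simp [sv, h]

lemma abs_overlap_le (σ τ : Cube N) : |overlap σ τ| ≤ 1 := by
  rcases Nat.eq_zero_or_pos N with rfl | hN
  · simp [overlap]
  rw [overlap, abs_div, Nat.abs_cast, div_le_one (by exact_mod_cast hN)]
  refine (Finset.abs_sum_le_sum_abs _ _).trans ?_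
  simp [abs_mul, abs_sv]

lemma overlap_comm (σ τ : Cube N) : overlap σ τ = overlap τ σ := by
  simp only [overlap, mul_comm]

lemma overlap_self (hN : 0 < N) (σ : Cube N) : overlap σ σ = 1 := by
  have h : ∀ i, sv σ i * sv σ i = 1 := fun i => by
    rw [← abs_mul_abs_self, abs_sv, one_mul]
  simp [overlap, h, hN.ne']

lemma overlap_psd {n : ℕ} (σ : Fin n → Cube N) (c : Fin n → ℝ) :
    0 ≤ ∑ a, ∑ b, c a * c b * overlap (σ a) (σ b) := by
  have h : ∑ a, ∑ b, c a * c b * overlap (σ a) (σ b) = (∑ i, (∑ a, c a * sv (σ a) i) ^ 2) / N := by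
    have e : ∀ i, (∑ a, c a * sv (σ a) i) ^ 2 =
        ∑ a, ∑ b, c a * c b * (sv (σ a) i * sv (σ b) i) := fun i => by
      rw [sq, Finset.sum_mul_sum]
      exact Finset.sum_congr rfl fun a _ => Finset.sum_congr rfl fun b _ => by ring
    simp only [e, overlap, mul_div_assoc', ← Finset.sum_div, Finset.mul_sum]
    congr 1
    conv_rhs => rw [Finset.sum_comm]
    refine Finset.sum_congr rfl fun a _ => ?_
    rw [Finset.sum_comm]
  rw [h]
  exact div_nonneg (Finset.sum_nonneg fun i _ => sq_nonneg _) (Nat.cast_nonneg _)

/-- The law of infinitely many uniform variables. -/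
def uLaw : Measure (ℕ → ℝ) := Measure.infinitePi fun _ => unif

instance : IsProbabilityMeasure uLaw := by unfold uLaw; infer_instance

/-- Replicas drawn from uniform variables. -/
def reps (S : State N) (q : S.Ω × (ℕ → ℝ)) (a : ℕ) : Cube N := samp (S.w q.1) (q.2 a)

/-- Their overlaps. -/
def sampleMap (S : State N) (q : S.Ω × (ℕ → ℝ)) : OArr :=
  fun a b => toI (overlap (reps S q a) (reps S q b))

/-- The law of the overlap array of a state. -/
def arrLawS (S : State N) : Measure OArr := (S.law.prod uLaw).map (sampleMap S)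

variable {S : State N}

lemma measurable_reps (hS : S.IsGood) (a : ℕ) :
    Measurable fun q : S.Ω × (ℕ → ℝ) => reps S q a := by
  have h : Measurable fun p : S.Ω × ℝ => samp (S.w p.1) p.2 :=
    measurable_samp hS.meas hS.nonneg
  exact h.comp (measurable_fst.prodMk ((measurable_pi_apply a).comp measurable_snd))

lemma measurable_sampleMap (hS : S.IsGood) : Measurable (sampleMap S) := by
  refine measurable_pi_lambda _ fun a => measurable_pi_lambda _ fun b => ?_
  exact Measurable.comp (g := fun p : Cube N × Cube N => toI (overlap p.1 p.2))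
    (f := fun q : S.Ω × (ℕ → ℝ) => (reps S q a, reps S q b)) (measurable_of_finite _)
    ((measurable_reps hS a).prodMk (measurable_reps hS b))

lemma isProb_arrLawS (hS : S.IsGood) : IsProbabilityMeasure (arrLawS S) := by
  have := hS.prob
  exact Measure.isProbabilityMeasure_map (measurable_sampleMap hS).aemeasurable

/-- A function of finitely many replicas has the mean of the state. -/
lemma integral_reps (hS : S.IsGood) {n : ℕ} {e : Fin n → ℕ} (he : Function.Injective e)
    (G : (Fin n → Cube N) → ℝ) :
    ∫ q, G (fun l => reps S q (e l)) ∂S.law.prod uLaw = S.repMean n G := by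
  have := hS.prob
  have hm : Measurable fun q : S.Ω × (ℕ → ℝ) => G fun l => reps S q (e l) :=
    (measurable_of_finite G).comp (measurable_pi_lambda _ fun l => measurable_reps hS (e l))
  have hi : Integrable (fun q : S.Ω × (ℕ → ℝ) => G fun l => reps S q (e l)) (S.law.prod uLaw) :=
    Integrable.of_bound hm.aestronglyMeasurable (∑ σ, |G σ|) (Eventually.of_forall fun q => by
      rw [Real.norm_eq_abs]
      exact Finset.single_le_sum (f := fun σ => |G σ|) (fun σ _ => abs_nonneg _)
        (Finset.mem_univ _))
  rw [integral_prod _ hi]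
  refine integral_congr_ae (Eventually.of_forall fun ω => ?_)
  have hw := hS.nonneg ω
  have hms : Measurable (samp (S.w ω)) :=
    (measurable_samp (Ω := Unit) (w := fun _ => S.w ω) (fun _ => measurable_const)
      fun _ => hw).comp ((measurable_const : Measurable fun _ : ℝ => ()).prodMk measurable_id)
  have hm1 : Measurable fun (u : ℕ → ℝ) (i : Fin n) => u (e i) := by fun_prop
  have hm2 : Measurable fun (v : Fin n → ℝ) (i : Fin n) => samp (S.w ω) (v i) :=
    measurable_pi_lambda _ fun i => hms.comp (measurable_pi_apply i)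
  have : IsProbabilityMeasure (unif.map (samp (S.w ω))) :=
    Measure.isProbabilityMeasure_map hms.aemeasurable
  have hmap : (Measure.pi fun _ : Fin n => unif).map (fun v i => samp (S.w ω) (v i))
      = Measure.pi fun _ : Fin n => unif.map (samp (S.w ω)) :=
    Measure.pi_map_pi (μ := fun _ : Fin n => unif) (f := fun _ => samp (S.w ω))
      fun _ => hms.aemeasurable
  have h1 := Measure.map_infinitePi_infinitePi_of_inj (P := fun _ : ℕ => unif) (f := e) he
  rw [Measure.infinitePi_eq_pi (μ := fun _ : Fin n => unif)] at h1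
  have e2 : ∫ u, G (fun i => samp (S.w ω) (u (e i))) ∂uLaw
      = ∫ σ, G σ ∂Measure.pi fun _ : Fin n => unif.map (samp (S.w ω)) := by
    rw [← hmap, integral_map hm2.aemeasurable (measurable_of_finite G).aestronglyMeasurable, ← h1,
      integral_map hm1.aemeasurable]
    · rfl
    · exact ((measurable_of_finite G).comp hm2).aestronglyMeasurable
  show ∫ u, G (fun i => samp (S.w ω) (u (e i))) ∂uLaw = _
  rw [e2, integral_fintype Integrable.of_finite]
  refine Finset.sum_congr rfl fun σ _ => ?_
  rw [smul_eq_mul]
  congr 1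
  rw [measureReal_def, Measure.pi_singleton, ENNReal.toReal_prod]
  exact Finset.prod_congr rfl fun i _ => unif_map_samp hw (hS.sum_one ω) (σ i)

/-- A function of the array reading finitely many replicas. -/
lemma integral_arr (hS : S.IsGood) {Φ : OArr → ℝ} (hΦ : Measurable Φ) {n : ℕ} {e : Fin n → ℕ}
    (he : Function.Injective e) (G : (Fin n → Cube N) → ℝ)
    (h : ∀ q, Φ (sampleMap S q) = G fun l => reps S q (e l)) :
    ∫ R, Φ R ∂arrLawS S = S.repMean n G := by
  rw [arrLawS, integral_map (measurable_sampleMap hS).aemeasurable hΦ.aestronglyMeasurable]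
  simp only [h]
  exact integral_reps hS he G

/-- Renaming replicas. -/
def permO (π : Equiv.Perm ℕ) (R : OArr) : OArr := fun a b => R (π a) (π b)

lemma continuous_permO (π : Equiv.Perm ℕ) : Continuous (permO π) := by
  unfold permO
  fun_prop

lemma arrLawS_perm (hS : S.IsGood) (π : Equiv.Perm ℕ) :
    (arrLawS S).map (permO π) = arrLawS S := by
  have := hS.prob
  have hu : MeasurePreserving (fun u : ℕ → ℝ => fun l => u (π l)) uLaw uLaw :=
    ⟨by fun_prop, Measure.map_infinitePi_infinitePi_of_inj (P := fun _ : ℕ => unif) π.injective⟩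
  have h := (MeasurePreserving.id S.law).prod hu
  have hm := measurable_sampleMap hS
  rw [arrLawS, Measure.map_map (continuous_permO π).measurable hm]
  conv_rhs => rw [← h.map_eq, Measure.map_map hm h.measurable]
  rfl

end Vale.Agent.P157.Parisi.TreeApprox
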